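import Vale.Agent.P247.H575.BXA

/-!
# P247, stage 2, package BX: boxes and the pencil

* `pencil`: the discs of the pencil `y ↦ Ξ (l, 0, y)` through the base point are uniformly
  transversal, by `C²`-closeness to the affine model;
* `BX`: `JD_statement` implies `BX_statement`.
-/

open scoped ContDiff Topology
open Set MeasureTheory Filter Metric

noncomputable section

namespace Vale.Agent.P247.H575

open Vale.Agent.P247.H74 Vale.Agent.P247.H574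

theorem Q3_open : IsOpen (ball (0 : ℂ) 2 ×ˢ ball (0 : ℂ) 2 ×ˢ ball (0 : ℂ) 2) :=
  isOpen_ball.prod (isOpen_ball.prod isOpen_ball)

theorem Q3_convex : Convex ℝ (ball (0 : ℂ) 2 ×ˢ ball (0 : ℂ) 2 ×ˢ ball (0 : ℂ) 2) :=
  (convex_ball _ _).prod ((convex_ball _ _).prod (convex_ball _ _))

theorem contDiff_lmod (D : Data) (x₀ v h : R4) (ε : ℝ) : ContDiff ℝ ∞ (lmod D x₀ v h ε) := by
  have h0 : lmod D x₀ v h ε = fun q : ℂ × ℂ × ℂ =>
      x₀ + ε • (cmL D x₀ h q.2.1 + cmL D x₀ v q.2.2 + cmL D x₀ h (q.1 * q.2.2)) := by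
    funext q
    simp only [lmod, cmL_apply]
  rw [h0]
  have h3 : ContDiff ℝ ∞ (fun q : ℂ × ℂ × ℂ => q.1 * q.2.2) :=
    contDiff_fst.mul (contDiff_snd.comp contDiff_snd)
  have h4 : ContDiff ℝ ∞ (fun q : ℂ × ℂ × ℂ => cmL D x₀ h q.2.1) :=
    (cmL D x₀ h).contDiff.comp (contDiff_fst.comp contDiff_snd)
  have h5 : ContDiff ℝ ∞ (fun q : ℂ × ℂ × ℂ => cmL D x₀ v q.2.2) :=
    (cmL D x₀ v).contDiff.comp (contDiff_snd.comp contDiff_snd)
  have h6 : ContDiff ℝ ∞ (fun q : ℂ × ℂ × ℂ => cmL D x₀ h (q.1 * q.2.2)) :=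
    (cmL D x₀ h).contDiff.comp h3
  exact contDiff_const.add (((h4.add h5).add h6).const_smul ε)

/-- the discs of the pencil through the base point are uniformly transversal -/
theorem pencil (D : Data) {K : ℝ} (hK : 0 < K) {ε δ : ℝ} (hε : 0 < ε)
    (hδ : 0 < δ) (hδ1 : δ ≤ 1 / (6 * K)) {x₀ v h : R4}
    (hvh : ∀ a b : ℂ, ‖a‖ + ‖b‖ ≤ K * ‖cm D x₀ a v + cm D x₀ b h‖)
    {Ξ : ℂ × ℂ × ℂ → R4} (hΞ : IsXi D x₀ v h ε δ Ξ)
    (hΞ2 : ∀ q ∈ ball (0 : ℂ) 2 ×ˢ ball (0 : ℂ) 2 ×ˢ ball (0 : ℂ) 2,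
      ‖fderiv ℝ (fderiv ℝ Ξ) q - fderiv ℝ (fderiv ℝ (lmod D x₀ v h ε)) q‖ ≤ ε * δ)
    {l l' y y' : ℂ} (hl : l ∈ ball (0 : ℂ) 2) (hl' : l' ∈ ball (0 : ℂ) 2)
    (hy : y ∈ ball (0 : ℂ) 2) (hy' : y' ∈ ball (0 : ℂ) 2) :
    ε / (2 * K) * (‖y - y'‖ + ‖l * y - l' * y'‖) ≤ ‖Ξ (l, 0, y) - Ξ (l', 0, y')‖ := by
  have hz : (0 : ℂ) ∈ ball (0 : ℂ) 2 := by simp
  set U : Set (ℂ × ℂ × ℂ) := ball (0 : ℂ) 2 ×ˢ ball (0 : ℂ) 2 ×ˢ ball (0 : ℂ) 2 with hU
  have hUo : IsOpen U := Q3_open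
  have hUc : Convex ℝ U := Q3_convex
  set M := lmod D x₀ v h ε with hM
  have hMs : ContDiff ℝ ∞ M := contDiff_lmod D x₀ v h ε
  set R : ℂ × ℂ × ℂ → R4 := fun q => Ξ q - M q with hR
  set F : ℂ × ℂ × ℂ → (ℂ × ℂ × ℂ →L[ℝ] R4) := fun q => fderiv ℝ Ξ q - fderiv ℝ M q with hF
  have hRd : ∀ q ∈ U, HasFDerivAt R (F q) q := fun q hq =>
    ((hΞ.smooth.contDiffAt (hUo.mem_nhds hq)).differentiableAt (by simp)).hasFDerivAt.sub
      (hMs.differentiable (by simp) q).hasFDerivAt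
  have hFd : ∀ q ∈ U, HasFDerivAt F
      (fderiv ℝ (fderiv ℝ Ξ) q - fderiv ℝ (fderiv ℝ M) q) q := fun q hq =>
    (((hΞ.smooth.contDiffAt (hUo.mem_nhds hq)).fderiv_right (m := ∞) (by simp)).differentiableAt
      (by simp)).hasFDerivAt.sub
      ((hMs.fderiv_right (m := ∞) (by simp)).differentiable (by simp) q).hasFDerivAt
  have hFb : ∀ q ∈ U, ‖F q‖ ≤ ε * δ := fun q hq => hΞ.close q hq
  have hFlip : ∀ q ∈ U, ∀ q' ∈ U, ‖F q - F q'‖ ≤ ε * δ * ‖q - q'‖ := fun q hq q' hq' =>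
    hUc.norm_image_sub_le_of_norm_hasFDerivWithin_le
      (fun x hx => (hFd x hx).hasFDerivWithinAt) (fun x hx => hΞ2 x hx) hq' hq
  have hRlip : ∀ q ∈ U, ∀ q' ∈ U, ‖R q - R q'‖ ≤ ε * δ * ‖q - q'‖ := fun q hq q' hq' =>
    hUc.norm_image_sub_le_of_norm_hasFDerivWithin_le
      (fun x hx => (hRd x hx).hasFDerivWithinAt) (fun x hx => hFb x hx) hq' hq
  -- the derivative in `l` of `R` vanishes on the axis
  have hzero : ∀ t ∈ ball (0 : ℂ) 2, ∀ a : ℂ, F (t, 0, 0) (a, 0, 0) = 0 := by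
    intro t ht a
    have h0 : HasFDerivAt (fun s : ℂ => ((s, 0, 0) : ℂ × ℂ × ℂ))
        (ContinuousLinearMap.inl ℝ ℂ (ℂ × ℂ)) t := hasFDerivAt_prodMk_left t ((0 : ℂ), (0 : ℂ))
    have h1 : HasFDerivAt (fun s : ℂ => R (s, 0, 0))
        ((F (t, 0, 0)).comp (ContinuousLinearMap.inl ℝ ℂ (ℂ × ℂ))) t :=
      HasFDerivAt.comp (g := R) t (hRd (t, 0, 0) ⟨ht, hz, hz⟩) h0
    have h2 : (fun s : ℂ => R (s, 0, 0)) =ᶠ[𝓝 t] fun _ => (0 : R4) := by
      filter_upwards [isOpen_ball.mem_nhds ht] with s hs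
      simp only [hR, hM]
      rw [hΞ.base s hs]
      simp [lmod, cm]
    have h3 : HasFDerivAt (fun s : ℂ => R (s, 0, 0)) (0 : ℂ →L[ℝ] R4) t :=
      (hasFDerivAt_const (0 : R4) t).congr_of_eventuallyEq h2
    have h4 := h1.unique h3
    exact congrArg (fun f : ℂ →L[ℝ] R4 => f a) h4
  -- the variation in `l`
  have hvar : ‖R (l, 0, y') - R (l', 0, y')‖ ≤ ε * δ * ‖y'‖ * ‖l - l'‖ := by
    refine (convex_ball (0 : ℂ) 2).norm_image_sub_le_of_norm_hasFDerivWithin_le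
      (f := fun s : ℂ => R (s, 0, y'))
      (f' := fun s => (F (s, 0, y')).comp (ContinuousLinearMap.inl ℝ ℂ (ℂ × ℂ)))
      (fun s hs => ?_) (fun s hs => ?_) hl' hl
    · have h0 : HasFDerivAt (fun s : ℂ => ((s, 0, y') : ℂ × ℂ × ℂ))
        (ContinuousLinearMap.inl ℝ ℂ (ℂ × ℂ)) s := hasFDerivAt_prodMk_left s ((0 : ℂ), y')
      exact (HasFDerivAt.comp (g := R) s (hRd (s, 0, y') ⟨hs, hz, hy'⟩) h0).hasFDerivWithinAt
    · apply ContinuousLinearMap.opNorm_le_bound _ (by positivity)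
      intro a
      have e1 : ((F (s, 0, y')).comp (ContinuousLinearMap.inl ℝ ℂ (ℂ × ℂ))) a =
          (F (s, 0, y') - F (s, 0, 0)) (a, 0, 0) := by
        rw [sub_apply, hzero s hs a, sub_zero]
        rfl
      rw [e1]
      refine (ContinuousLinearMap.le_opNorm _ _).trans ?_
      have e2 := hFlip (s, 0, y') ⟨hs, hz, hy'⟩ (s, 0, 0) ⟨hs, hz, hz⟩
      have e3 : ‖((s, 0, y') : ℂ × ℂ × ℂ) - (s, 0, 0)‖ = ‖y'‖ := by
        simp [Prod.norm_def]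
      have e4 : ‖((a, 0, 0) : ℂ × ℂ × ℂ)‖ = ‖a‖ := by
        simp [Prod.norm_def]
      rw [e3] at e2
      rw [e4]
      exact mul_le_mul_of_nonneg_right e2 (norm_nonneg _)
  have hvar2 : ‖R (l, 0, y) - R (l, 0, y')‖ ≤ ε * δ * ‖y - y'‖ := by
    have e1 := hRlip (l, 0, y) ⟨hl, hz, hy⟩ (l, 0, y') ⟨hl, hz, hy'⟩
    have e3 : ‖((l, 0, y) : ℂ × ℂ × ℂ) - (l, 0, y')‖ = ‖y - y'‖ := by
      simp [Prod.norm_def]
    rwa [e3] at e1
  have hl2 : ‖l‖ < 2 := mem_ball_zero_iff.1 hl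
  have hyl : ‖y'‖ * ‖l - l'‖ ≤ ‖l * y - l' * y'‖ + 2 * ‖y - y'‖ := by
    rw [← norm_mul]
    have e1 : y' * (l - l') = (l * y - l' * y') - l * (y - y') := by ring
    rw [e1]
    refine (norm_sub_le _ _).trans ?_
    rw [norm_mul l]
    have := mul_le_mul_of_nonneg_right hl2.le (norm_nonneg (y - y'))
    linarith
  have hRR : ‖R (l, 0, y) - R (l', 0, y')‖ ≤
      3 * (ε * δ) * (‖y - y'‖ + ‖l * y - l' * y'‖) := by
    have e1 : R (l, 0, y) - R (l', 0, y') =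
        (R (l, 0, y) - R (l, 0, y')) + (R (l, 0, y') - R (l', 0, y')) := by abel
    rw [e1]
    refine (norm_add_le _ _).trans ?_
    have e2 : ε * δ * ‖y'‖ * ‖l - l'‖ ≤ ε * δ * (‖l * y - l' * y'‖ + 2 * ‖y - y'‖) := by
      rw [mul_assoc]
      exact mul_le_mul_of_nonneg_left hyl (by positivity)
    have e3 : 0 ≤ ε * δ * ‖l * y - l' * y'‖ := by positivity
    linarith
  have hMM : M (l, 0, y) - M (l', 0, y') =
      ε • (cm D x₀ (y - y') v + cm D x₀ (l * y - l' * y') h) := by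
    simp only [hM, lmod, ← cmL_apply, map_sub, map_zero, zero_add]
    rw [add_sub_add_left_eq_sub, ← smul_sub]
    congr 1
    abel
  have hMb : ε / K * (‖y - y'‖ + ‖l * y - l' * y'‖) ≤ ‖M (l, 0, y) - M (l', 0, y')‖ := by
    rw [hMM, norm_smul, Real.norm_of_nonneg hε.le, div_mul_eq_mul_div, div_le_iff₀ hK]
    have := hvh (y - y') (l * y - l' * y')
    calc ε * (‖y - y'‖ + ‖l * y - l' * y'‖) ≤
        ε * (K * ‖cm D x₀ (y - y') v + cm D x₀ (l * y - l' * y') h‖) :=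
          mul_le_mul_of_nonneg_left this hε.le
      _ = _ := by ring
  have hfin : Ξ (l, 0, y) - Ξ (l', 0, y') =
      (R (l, 0, y) - R (l', 0, y')) + (M (l, 0, y) - M (l', 0, y')) := by
    simp only [hR]
    abel
  have h7 : ‖M (l, 0, y) - M (l', 0, y')‖ - ‖R (l, 0, y) - R (l', 0, y')‖ ≤
      ‖Ξ (l, 0, y) - Ξ (l', 0, y')‖ := by
    rw [hfin, add_comm]
    have := norm_sub_norm_le (M (l, 0, y) - M (l', 0, y')) (-(R (l, 0, y) - R (l', 0, y')))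
    rw [norm_neg, sub_neg_eq_add] at this
    exact this
  have h8 : 3 * (ε * δ) ≤ ε / (2 * K) := by
    rw [le_div_iff₀ (by positivity)] at hδ1 ⊢
    nlinarith
  have h9 : ε / K = ε / (2 * K) + ε / (2 * K) := by
    field_simp
    norm_num
  have h10 : 0 ≤ ‖y - y'‖ + ‖l * y - l' * y'‖ := by positivity
  have h11 := mul_le_mul_of_nonneg_right h8 h10
  rw [h9, add_mul] at hMb
  linarith

/-- **BX**: boxes and pencils from local families of `J`-discs -/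
theorem BX (hJD : JD_statement) : BX_statement := by
  intro D K δ hK hδ
  obtain ⟨B, hB1, hB⟩ := K2H.exists_bound D
  have hB0 : 0 < B := by linarith
  set C : ℝ := 6 * K + (4 * K * (1 + B) + 1) with hC
  refine ⟨C, by positivity, ?_⟩
  set δ' : ℝ := min δ (min 1 (min (1 / (48 * K * (B + 1))) (1 / (6 * K)))) with hδ'
  have hδ'0 : 0 < δ' := lt_min hδ (lt_min one_pos (lt_min (by positivity) (by positivity)))
  have hδ'1 : δ' ≤ 1 := (min_le_right _ _).trans (min_le_left _ _)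
  have hδ'2 : δ' ≤ 1 / (48 * K * (B + 1)) :=
    (min_le_right _ _).trans ((min_le_right _ _).trans (min_le_left _ _))
  have hδ'3 : δ' ≤ 1 / (6 * K) :=
    (min_le_right _ _).trans ((min_le_right _ _).trans (min_le_right _ _))
  obtain ⟨ε₁, hε₁, H⟩ := hJD D K δ' hK hδ'0
  refine ⟨min ε₁ (min (1 / (8 * (4 * K * (1 + B) + 1)))
    (1 / (96 * K * B * (4 * K * (1 + B) + 1) ^ 2))), lt_min hε₁ (lt_min (by positivity)
      (by positivity)), fun ε hε hle x₀ v h hv hh hvh => ?_⟩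
  obtain ⟨Ξ, h1, h2, h3⟩ := H ε hε (hle.trans (min_le_left _ _)) x₀ v h hv hh hvh
  have hΞ : IsXi D x₀ v h ε δ' Ξ := ⟨h1, fun q hq => (h2 q hq).1, fun q hq => (h2 q hq).2.1, h3⟩
  have hΞm := hΞ.mono hε.le (min_le_left _ _ : δ' ≤ δ)
  refine ⟨Ξ, h1, fun q hq => ⟨hΞm.hol q hq, hΞm.close q hq⟩, h3, fun l hl => ?_,
    fun l hl l' hl' y hy y' hy' => ?_⟩
  · obtain ⟨b, hb1, hb2, hb3, hb4⟩ := box_of_Xi D hB1 hB hK hε hδ'0 hδ'1 hδ'2
      (hle.trans ((min_le_right _ _).trans (min_le_left _ _)))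
      (hle.trans ((min_le_right _ _).trans (min_le_right _ _))) hv hh hvh hΞ hl
    refine ⟨b, fun p _ => hb1 p, hb2, hb3, fun p hp q hq => ?_⟩
    obtain ⟨g1, g2⟩ := hb4 p hp q hq
    constructor
    · refine le_trans ?_ g1
      apply mul_le_mul_of_nonneg_right _ (norm_nonneg _)
      apply div_le_div_of_nonneg_left hε.le (by positivity)
      have : 0 < 4 * K * (1 + B) + 1 := by positivity
      linarith
    · refine g2.trans ?_
      apply mul_le_mul_of_nonneg_right _ (norm_nonneg _)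
      apply mul_le_mul_of_nonneg_right _ hε.le
      linarith
  · refine le_trans ?_ (pencil D hK hε hδ'0 hδ'3 hvh hΞ (fun q hq => (h2 q hq).2.2) hl hl' hy hy')
    apply mul_le_mul_of_nonneg_right _ (by positivity)
    apply div_le_div_of_nonneg_left hε.le (by positivity)
    have : 0 < 4 * K * (1 + B) + 1 := by positivity
    linarith

end Vale.Agent.P247.H575
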