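import Vale.Agent.P247.H574.Sta2
import Vale.Agent.P247.H74.K2H.Loc

/-!
# P247, stage 2, package BX: boxes from local families of `J`-discs, part A

* `graph_iff`: the linear algebra of the graph condition;
* `exists_box`: a map `C¹`-close to an injective complex linear map is a box;
* `BXA`: `JD_statement` implies the existence of boxes, together with the closeness to the model.
-/

open scoped ContDiff Topology
open Set MeasureTheory Filter Metric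

noncomputable section

namespace Vale.Agent.P247.H575

open Vale.Agent.P247.H74 Vale.Agent.P247.H574

abbrev W2 : Type := ℂ × ℂ

/-! ## Linear algebra -/

/-- real linear maps `ℂ → ℂ` as `a ζ + b conj ζ` -/
theorem real_lin (j : ℂ →ₗ[ℝ] ℂ) (ζ : ℂ) :
    j ζ = (j 1 - Complex.I * j Complex.I) / 2 * ζ +
      (j 1 + Complex.I * j Complex.I) / 2 * (starRingEnd ℂ) ζ := by
  have h1 : ζ = ζ.re • (1 : ℂ) + ζ.im • Complex.I := by
    simp [Complex.re_add_im]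
  have h2 : j ζ = (ζ.re : ℂ) * j 1 + (ζ.im : ℂ) * j Complex.I := by
    conv_lhs => rw [h1]
    rw [map_add, map_smul, map_smul, Complex.real_smul, Complex.real_smul]
  have h3 : (starRingEnd ℂ) ζ = (ζ.re : ℂ) - ζ.im * Complex.I := by
    apply Complex.ext <;> simp
  have h4 : ζ = (ζ.re : ℂ) + ζ.im * Complex.I := (Complex.re_add_im ζ).symm
  rw [h2, h3]
  conv_rhs => rw [h4]
  simp only [Complex.add_re, Complex.ofReal_re, Complex.mul_re, Complex.I_re, mul_zero,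
    Complex.ofReal_im, Complex.I_im, mul_one, sub_self, add_zero, Complex.add_im,
    Complex.mul_im, zero_add]
  linear_combination ((ζ.im : ℂ) * j Complex.I) * Complex.I_mul_I

theorem coef_zero {a b : ℂ} (h : ∀ ζ : ℂ, a * ζ + b * (starRingEnd ℂ) ζ = 0) : a = 0 ∧ b = 0 := by
  have h1 := h 1
  have h2 := h Complex.I
  simp only [map_one, mul_one, Complex.conj_I] at h1 h2
  have h3 : (a - b) * Complex.I = 0 := by linear_combination h2
  have h4 : a - b = 0 := by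
    rcases mul_eq_zero.1 h3 with h | h
    · exact h
    · exact absurd h Complex.I_ne_zero
  constructor
  · linear_combination (1 / 2 : ℂ) * h1 + (1 / 2 : ℂ) * h4
  · linear_combination (1 / 2 : ℂ) * h1 - (1 / 2 : ℂ) * h4

/-- the coefficients of `G (ζ, 0) = (al ζ + be conj ζ, k1 ζ + k2 conj ζ)` -/
def al (G : W2 →L[ℝ] W2) : ℂ := ((G (1, 0)).1 - Complex.I * (G (Complex.I, 0)).1) / 2
def be (G : W2 →L[ℝ] W2) : ℂ := ((G (1, 0)).1 + Complex.I * (G (Complex.I, 0)).1) / 2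
def k1 (G : W2 →L[ℝ] W2) : ℂ := ((G (1, 0)).2 - Complex.I * (G (Complex.I, 0)).2) / 2
def k2 (G : W2 →L[ℝ] W2) : ℂ := ((G (1, 0)).2 + Complex.I * (G (Complex.I, 0)).2) / 2

/-- the coefficients of the graph equation -/
def mm (G : W2 →L[ℝ] W2) : ℂ := be G * (Complex.I - (starRingEnd ℂ) (al G))⁻¹
def AA (G : W2 →L[ℝ] W2) : ℂ := -k2 G * (Complex.I - (starRingEnd ℂ) (al G))⁻¹

theorem G_fst (G : W2 →L[ℝ] W2) (ζ : ℂ) :
    (G (ζ, 0)).1 = al G * ζ + be G * (starRingEnd ℂ) ζ := by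
  have h := real_lin ((LinearMap.fst ℝ ℂ ℂ).comp ((G : W2 →ₗ[ℝ] W2).comp (LinearMap.inl ℝ ℂ ℂ))) ζ
  simpa [al, be] using h

theorem G_snd (G : W2 →L[ℝ] W2) (ζ : ℂ) :
    (G (ζ, 0)).2 = k1 G * ζ + k2 G * (starRingEnd ℂ) ζ := by
  have h := real_lin ((LinearMap.snd ℝ ℂ ℂ).comp ((G : W2 →ₗ[ℝ] W2).comp (LinearMap.inl ℝ ℂ ℂ))) ζ
  simpa [k1, k2] using h

section Graph

variable {G : W2 →L[ℝ] W2} (hG : ∀ w, G (G w) = -w) (h01 : G (0, 1) = (0, Complex.I))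

include hG h01

theorem G_vert (y : ℂ) : G (0, y) = (0, Complex.I * y) := by
  have h1 : G (0, Complex.I) = (0, -1) := by
    rw [← h01, hG]; simp
  have h2 : ((0 : ℂ), y) = y.re • ((0 : ℂ), (1 : ℂ)) + y.im • ((0 : ℂ), Complex.I) := by
    ext
    · simp
    · simp [Complex.re_add_im]
  rw [h2, map_add, map_smul, map_smul, h01, h1]
  ext
  · simp
  · simp only [Prod.smul_mk, smul_zero, Complex.real_smul, Prod.mk_add_mk, add_zero, mul_neg,
      mul_one]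
    conv_rhs => rw [← Complex.re_add_im y]
    linear_combination (-(y.im : ℂ)) * Complex.I_mul_I

theorem G_full (ζ y : ℂ) : G (ζ, y) = (al G * ζ + be G * (starRingEnd ℂ) ζ,
    k1 G * ζ + k2 G * (starRingEnd ℂ) ζ + Complex.I * y) := by
  have h1 : ((ζ : ℂ), y) = (ζ, 0) + (0, y) := by simp
  rw [h1, map_add, G_vert hG h01 y]
  ext
  · simp [G_fst]
  · simp [G_snd]

theorem rel_j : al G * al G + be G * (starRingEnd ℂ) (be G) = -1 ∧
    al G * be G + be G * (starRingEnd ℂ) (al G) = 0 ∧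
    k1 G * al G + k2 G * (starRingEnd ℂ) (be G) + Complex.I * k1 G = 0 ∧
    k1 G * be G + k2 G * (starRingEnd ℂ) (al G) + Complex.I * k2 G = 0 := by
  have h1 : ∀ ζ : ℂ, G (G (ζ, 0)) = -(ζ, 0) := fun ζ => hG _
  have h2 : ∀ ζ : ℂ, (al G * al G + be G * (starRingEnd ℂ) (be G) + 1) * ζ +
      (al G * be G + be G * (starRingEnd ℂ) (al G)) * (starRingEnd ℂ) ζ = 0 := by
    intro ζ
    have h := congrArg Prod.fst (h1 ζ)
    rw [G_full hG h01 ζ 0, G_full hG h01] at h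
    simp only [map_add, map_mul, Complex.conj_conj, Prod.fst_neg] at h
    linear_combination h
  have h3 : ∀ ζ : ℂ, (k1 G * al G + k2 G * (starRingEnd ℂ) (be G) + Complex.I * k1 G) * ζ +
      (k1 G * be G + k2 G * (starRingEnd ℂ) (al G) + Complex.I * k2 G) * (starRingEnd ℂ) ζ = 0 := by
    intro ζ
    have h := congrArg Prod.snd (h1 ζ)
    rw [G_full hG h01 ζ 0, G_full hG h01] at h
    simp only [map_add, map_mul, Complex.conj_conj, Prod.snd_neg, mul_zero, add_zero, neg_zero]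
      at h
    linear_combination h
  obtain ⟨a1, a2⟩ := coef_zero h2
  obtain ⟨a3, a4⟩ := coef_zero h3
  exact ⟨by linear_combination a1, a2, a3, a4⟩

theorem al_re : (al G).re = 0 := by
  obtain ⟨h1, -, -, -⟩ := rel_j hG h01
  have h2 := congrArg Complex.re h1
  have h3 := congrArg Complex.im h1
  simp only [Complex.add_re, Complex.mul_re, Complex.conj_re, Complex.conj_im, Complex.neg_re,
    Complex.one_re, Complex.add_im, Complex.mul_im, Complex.neg_im, Complex.one_im] at h2 h3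
  have h4 : (al G).re * (al G).im = 0 := by linarith
  rcases mul_eq_zero.1 h4 with h | h
  · exact h
  · exfalso
    rw [h] at h2
    nlinarith [sq_nonneg (al G).re, sq_nonneg (be G).re, sq_nonneg (be G).im]

theorem al_conj : (starRingEnd ℂ) (al G) = -al G := by
  have h := al_re hG h01
  apply Complex.ext <;> simp [h]

theorem graph_iff (hne : Complex.I - (starRingEnd ℂ) (al G) ≠ 0) (a b : ℂ) :
    b = mm G * a + AA G ↔ ∀ ζ : ℂ, ∃ ξ : ℂ,
      G (ζ, a * ζ + b * (starRingEnd ℂ) ζ) = (ξ, a * ξ + b * (starRingEnd ℂ) ξ) := by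
  obtain ⟨r1, r2, r3, r4⟩ := rel_j hG h01
  have hcj := al_conj hG h01
  have hE : b = mm G * a + AA G ↔ b * (Complex.I - (starRingEnd ℂ) (al G)) = be G * a - k2 G := by
    unfold mm AA
    constructor
    · intro h
      rw [h]
      field_simp
      ring
    · intro h
      field_simp
      linear_combination h
  rw [hE]
  constructor
  · intro h ζ
    refine ⟨al G * ζ + be G * (starRingEnd ℂ) ζ, ?_⟩
    rw [G_full hG h01]
    refine Prod.ext rfl ?_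
    simp only [map_add, map_mul, Complex.conj_conj]
    -- the equation `E1`
    have hE1 : k1 G + Complex.I * a - a * al G - b * (starRingEnd ℂ) (be G) = 0 := by
      have h5 : (Complex.I - (starRingEnd ℂ) (al G)) *
          (k1 G + Complex.I * a - a * al G - b * (starRingEnd ℂ) (be G)) = 0 := by
        rw [hcj] at h ⊢
        rw [hcj] at r4
        linear_combination (-(starRingEnd ℂ) (be G)) * h + (-a) * r1 + r3 + a * Complex.I_mul_I
      rcases mul_eq_zero.1 h5 with h6 | h6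
      · exact absurd h6 hne
      · exact h6
    have hE2 : k2 G + Complex.I * b - a * be G - b * (starRingEnd ℂ) (al G) = 0 := by
      linear_combination h
    linear_combination ζ * hE1 + ((starRingEnd ℂ) ζ) * hE2
  · intro h
    have h2 : ∀ ζ : ℂ, (k1 G + Complex.I * a - a * al G - b * (starRingEnd ℂ) (be G)) * ζ +
        (k2 G + Complex.I * b - a * be G - b * (starRingEnd ℂ) (al G)) * (starRingEnd ℂ) ζ = 0 := by
      intro ζ
      obtain ⟨ξ, hξ⟩ := h ζ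
      rw [G_full hG h01] at hξ
      have e1 := congrArg Prod.fst hξ
      have e2 := congrArg Prod.snd hξ
      simp only at e1 e2
      rw [← e1] at e2
      simp only [map_add, map_mul, Complex.conj_conj] at e2
      linear_combination e2
    obtain ⟨-, h3⟩ := coef_zero h2
    linear_combination h3

end Graph

/-! ## Smoothness of the coefficients -/

theorem al_clm : ∃ L : (W2 →L[ℝ] W2) →L[ℝ] ℂ, ∀ G, L G = al G := by
  refine ⟨(1 / 2 : ℂ) • ((ContinuousLinearMap.fst ℝ ℂ ℂ).comp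
    (ContinuousLinearMap.apply ℝ W2 ((1 : ℂ), (0 : ℂ))) -
    Complex.I • (ContinuousLinearMap.fst ℝ ℂ ℂ).comp
      (ContinuousLinearMap.apply ℝ W2 (Complex.I, (0 : ℂ)))), fun G => ?_⟩
  simp [al]
  ring

theorem be_clm : ∃ L : (W2 →L[ℝ] W2) →L[ℝ] ℂ, ∀ G, L G = be G := by
  refine ⟨(1 / 2 : ℂ) • ((ContinuousLinearMap.fst ℝ ℂ ℂ).comp
    (ContinuousLinearMap.apply ℝ W2 ((1 : ℂ), (0 : ℂ))) +
    Complex.I • (ContinuousLinearMap.fst ℝ ℂ ℂ).comp
      (ContinuousLinearMap.apply ℝ W2 (Complex.I, (0 : ℂ)))), fun G => ?_⟩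
  simp [be]
  ring

theorem k2_clm : ∃ L : (W2 →L[ℝ] W2) →L[ℝ] ℂ, ∀ G, L G = k2 G := by
  refine ⟨(1 / 2 : ℂ) • ((ContinuousLinearMap.snd ℝ ℂ ℂ).comp
    (ContinuousLinearMap.apply ℝ W2 ((1 : ℂ), (0 : ℂ))) +
    Complex.I • (ContinuousLinearMap.snd ℝ ℂ ℂ).comp
      (ContinuousLinearMap.apply ℝ W2 (Complex.I, (0 : ℂ)))), fun G => ?_⟩
  simp [k2]
  ring

theorem smooth_coef {U : Set W2} {G : W2 → W2 →L[ℝ] W2} (hG : ContDiffOn ℝ ∞ G U)
    (hne : ∀ p ∈ U, Complex.I - (starRingEnd ℂ) (al (G p)) ≠ 0) :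
    ContDiffOn ℝ ∞ (fun p => mm (G p)) U ∧ ContDiffOn ℝ ∞ (fun p => AA (G p)) U := by
  obtain ⟨La, ha⟩ := al_clm
  obtain ⟨Lb, hb⟩ := be_clm
  obtain ⟨Lk, hk⟩ := k2_clm
  have h1 : ContDiffOn ℝ ∞ (fun p => al (G p)) U := by
    simp_rw [← ha]
    exact La.contDiff.comp_contDiffOn hG
  have h2 : ContDiffOn ℝ ∞ (fun p => be (G p)) U := by
    simp_rw [← hb]
    exact Lb.contDiff.comp_contDiffOn hG
  have h3 : ContDiffOn ℝ ∞ (fun p => k2 (G p)) U := by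
    simp_rw [← hk]
    exact Lk.contDiff.comp_contDiffOn hG
  have h4 : ContDiffOn ℝ ∞ (fun p => Complex.I - (starRingEnd ℂ) (al (G p))) U :=
    contDiffOn_const.sub ((Complex.conjCLE : ℂ →L[ℝ] ℂ).contDiff.comp_contDiffOn h1)
  have h5 : ContDiffOn ℝ ∞ (fun p => (Complex.I - (starRingEnd ℂ) (al (G p)))⁻¹) U :=
    h4.inv hne
  exact ⟨h2.mul h5, h3.neg.mul h5⟩

/-! ## Estimates for the coefficients -/

theorem coef_est {G : W2 →L[ℝ] W2} (h : ∀ w : W2, ‖G w - Complex.I • w‖ ≤ 1 / 4 * ‖w‖) :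
    Complex.I - (starRingEnd ℂ) (al G) ≠ 0 ∧ ‖mm G‖ ≤ 1 / 2 := by
  have e1 : ‖(G (1, 0)).1 - Complex.I‖ ≤ 1 / 4 := by
    have h1 := (norm_fst_le _).trans (h (1, 0))
    have h2 : ‖((1 : ℂ), (0 : ℂ))‖ = 1 := by simp [Prod.norm_def]
    rw [h2, mul_one] at h1
    simpa using h1
  have e2 : ‖(G (Complex.I, 0)).1 + 1‖ ≤ 1 / 4 := by
    have h1 := (norm_fst_le _).trans (h (Complex.I, 0))
    have h2 : ‖((Complex.I : ℂ), (0 : ℂ))‖ = 1 := by simp [Prod.norm_def]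
    rw [h2, mul_one] at h1
    simpa using h1
  have hal : ‖al G - Complex.I‖ ≤ 1 / 4 := by
    have h3 : al G - Complex.I = (1 / 2 : ℂ) * (((G (1, 0)).1 - Complex.I) -
        Complex.I * ((G (Complex.I, 0)).1 + 1)) := by
      unfold al
      ring
    rw [h3, norm_mul]
    have h4 : ‖((G (1, 0)).1 - Complex.I) - Complex.I * ((G (Complex.I, 0)).1 + 1)‖ ≤
        1 / 4 + 1 / 4 := by
      refine (norm_sub_le _ _).trans (add_le_add e1 ?_)
      rw [norm_mul, Complex.norm_I, one_mul]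
      exact e2
    have h5 : ‖(1 / 2 : ℂ)‖ = 1 / 2 := by norm_num
    rw [h5]
    linarith
  have hbe : ‖be G‖ ≤ 1 / 4 := by
    have h3 : be G = (1 / 2 : ℂ) * (((G (1, 0)).1 - Complex.I) +
        Complex.I * ((G (Complex.I, 0)).1 + 1)) := by
      unfold be
      ring
    rw [h3, norm_mul]
    have h4 : ‖((G (1, 0)).1 - Complex.I) + Complex.I * ((G (Complex.I, 0)).1 + 1)‖ ≤
        1 / 4 + 1 / 4 := by
      refine (norm_add_le _ _).trans (add_le_add e1 ?_)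
      rw [norm_mul, Complex.norm_I, one_mul]
      exact e2
    have h5 : ‖(1 / 2 : ℂ)‖ = 1 / 2 := by norm_num
    rw [h5]
    linarith
  have h6 : (7 : ℝ) / 4 ≤ ‖Complex.I - (starRingEnd ℂ) (al G)‖ := by
    have h7 : Complex.I - (starRingEnd ℂ) (al G) = 2 * Complex.I -
        (starRingEnd ℂ) (al G - Complex.I) := by
      rw [map_sub, Complex.conj_I]
      ring
    have h8 : ‖(starRingEnd ℂ) (al G - Complex.I)‖ ≤ 1 / 4 := by
      rw [Complex.norm_conj]; exact hal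
    have h9 : ‖2 * Complex.I‖ = 2 := by simp
    rw [h7]
    have := norm_sub_norm_le (2 * Complex.I) ((starRingEnd ℂ) (al G - Complex.I))
    linarith
  refine ⟨fun h0 => ?_, ?_⟩
  · rw [h0, norm_zero] at h6
    norm_num at h6
  · unfold mm
    rw [norm_mul, norm_inv]
    have h10 : ‖Complex.I - (starRingEnd ℂ) (al G)‖⁻¹ ≤ (7 / 4)⁻¹ := by
      apply inv_anti₀ (by norm_num) h6
    calc ‖be G‖ * ‖Complex.I - (starRingEnd ℂ) (al G)‖⁻¹ ≤ 1 / 4 * (7 / 4)⁻¹ := by gcongr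
      _ ≤ 1 / 2 := by norm_num

/-! ## Boxes from maps close to a linear one -/

theorem PD_open (r : ℝ) : IsOpen (PD r) := isOpen_ball.prod isOpen_ball

theorem PD_convex (r : ℝ) : Convex ℝ (PD r) := (convex_ball 0 r).prod (convex_ball 0 r)

theorem norm_of_PD {r : ℝ} {p : W2} (hp : p ∈ PD r) : ‖p‖ < r := by
  obtain ⟨h1, h2⟩ := hp
  rw [mem_ball_zero_iff] at h1 h2
  exact max_lt h1 h2

theorem exists_box (D : Data) (Θ : W2 → R4) (x₀ : R4) (L : W2 →L[ℝ] R4) (B c M d : ℝ)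
    (hB1 : 1 ≤ B) (hB : ∀ x, ‖D.J x‖ ≤ B ∧ ‖fderiv ℝ D.J x‖ ≤ B)
    (hs : ContDiffOn ℝ ∞ Θ (PD 2))
    (hhol : ∀ p ∈ PD 2, fderiv ℝ Θ p (0, Complex.I) = D.J (Θ p) (fderiv ℝ Θ p (0, 1)))
    (h0 : Θ (0, 0) = x₀) (hLI : ∀ w : W2, L (Complex.I • w) = D.J x₀ (L w))
    (hc : 0 < c) (hd0 : 0 ≤ d) (hLc : ∀ w, c * ‖w‖ ≤ ‖L w‖) (hLM : ‖L‖ ≤ M)
    (hd : ∀ p ∈ PD 2, ‖fderiv ℝ Θ p - L‖ ≤ d) (hdc : 2 * d ≤ c)
    (hsm : (B + 1) * d + B * (2 * (M + d)) * M ≤ 1 / 4 * (c / 2))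
    (h1 : 4 * (M + d) < 1) :
    ∃ b : Box D, b.Θ = Θ ∧ (∀ p ∈ PD 2, ‖b.m p‖ ≤ 1 / 2) ∧
      ∀ p ∈ PD 2, ∀ q ∈ PD 2, c / 2 * ‖p - q‖ ≤ ‖Θ p - Θ q‖ ∧
        ‖Θ p - Θ q‖ ≤ (M + d) * ‖p - q‖ := by
  have hM0 : 0 ≤ M := (norm_nonneg _).trans hLM
  have hB0 : 0 ≤ B := by linarith
  have hdiff : ∀ p ∈ PD 2, DifferentiableAt ℝ Θ p := fun p hp =>
    (hs.contDiffAt ((PD_open 2).mem_nhds hp)).differentiableAt (by simp)
  have hz : (0 : W2) ∈ PD 2 := by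
    constructor <;> simp
  -- bi-Lipschitz
  have hlip : ∀ p ∈ PD 2, ∀ q ∈ PD 2, ‖(Θ p - L p) - (Θ q - L q)‖ ≤ d * ‖p - q‖ := by
    intro p hp q hq
    refine (PD_convex 2).norm_image_sub_le_of_norm_hasFDerivWithin_le
      (f := fun p => Θ p - L p) (f' := fun p => fderiv ℝ Θ p - L) (fun x hx => ?_)
      (fun x hx => hd x hx) hq hp
    exact ((hdiff x hx).hasFDerivAt.sub L.hasFDerivAt).hasFDerivWithinAt
  have hbil : ∀ p ∈ PD 2, ∀ q ∈ PD 2, c / 2 * ‖p - q‖ ≤ ‖Θ p - Θ q‖ ∧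
        ‖Θ p - Θ q‖ ≤ (M + d) * ‖p - q‖ := by
    intro p hp q hq
    have e1 := hlip p hp q hq
    have e2 : Θ p - Θ q = ((Θ p - L p) - (Θ q - L q)) + L (p - q) := by
      rw [map_sub]; abel
    have e3 := hLc (p - q)
    have e4 : ‖L (p - q)‖ ≤ M * ‖p - q‖ :=
      (L.le_opNorm _).trans (mul_le_mul_of_nonneg_right hLM (norm_nonneg _))
    constructor
    · have e5 : ‖L (p - q)‖ - ‖(Θ p - L p) - (Θ q - L q)‖ ≤ ‖Θ p - Θ q‖ := by
        rw [e2, add_comm]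
        have := norm_sub_norm_le (L (p - q)) (-((Θ p - L p) - (Θ q - L q)))
        rw [norm_neg, sub_neg_eq_add] at this
        exact this
      nlinarith [norm_nonneg (p - q)]
    · rw [e2]
      refine (norm_add_le _ _).trans ?_
      linarith
  -- derivative
  have hDlow : ∀ p ∈ PD 2, ∀ w, c / 2 * ‖w‖ ≤ ‖fderiv ℝ Θ p w‖ := by
    intro p hp w
    have e1 : ‖fderiv ℝ Θ p w - L w‖ ≤ d * ‖w‖ := by
      rw [← sub_apply]
      exact (ContinuousLinearMap.le_opNorm _ _).trans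
        (mul_le_mul_of_nonneg_right (hd p hp) (norm_nonneg _))
    have e2 := hLc w
    have e3 := norm_sub_norm_le (L w) (L w - fderiv ℝ Θ p w)
    rw [sub_sub_cancel, norm_sub_rev] at e3
    nlinarith [norm_nonneg w]
  have hDinj : ∀ p ∈ PD 2, Function.Injective (fderiv ℝ Θ p) := by
    intro p hp
    rw [injective_iff_map_eq_zero]
    intro w hw
    have := hDlow p hp w
    rw [hw, norm_zero] at this
    have h2 : ‖w‖ ≤ 0 := by nlinarith [norm_nonneg w]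
    exact norm_le_zero_iff.1 h2
  have hDbij : ∀ p ∈ PD 2, Function.Bijective (fderiv ℝ Θ p) := by
    intro p hp
    refine ⟨hDinj p hp, ?_⟩
    have hfr : Module.finrank ℝ W2 = Module.finrank ℝ R4 := by
      rw [Module.finrank_prod, Complex.finrank_real_complex, Module.finrank_fin_fun]
    exact (LinearMap.injective_iff_surjective_of_finrank_eq_finrank hfr
      (f := (fderiv ℝ Θ p : W2 →ₗ[ℝ] R4))).1 (hDinj p hp)
  -- the matrix of `J`
  set Gf : W2 → W2 →L[ℝ] W2 := fun p =>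
    (ContinuousLinearMap.inverse (fderiv ℝ Θ p)).comp ((D.J (Θ p)).comp (fderiv ℝ Θ p)) with hGf
  have heq : ∀ p ∈ PD 2, ∃ e : W2 ≃L[ℝ] R4, (e : W2 →L[ℝ] R4) = fderiv ℝ Θ p := by
    intro p hp
    refine ⟨ContinuousLinearEquiv.ofBijective (fderiv ℝ Θ p)
      (LinearMap.ker_eq_bot.2 (hDinj p hp)) (LinearMap.range_eq_top.2 (hDbij p hp).2), ?_⟩
    exact ContinuousLinearMap.ext fun w => rfl
  have hGB : ∀ p ∈ PD 2, ∀ w, fderiv ℝ Θ p (Gf p w) = D.J (Θ p) (fderiv ℝ Θ p w) := by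
    intro p hp w
    obtain ⟨e, he⟩ := heq p hp
    simp only [hGf, ContinuousLinearMap.comp_apply]
    rw [← he, ContinuousLinearMap.inverse_equiv]
    simp
  have hGs : ContDiffOn ℝ ∞ Gf (PD 2) := by
    have e1 : ContDiffOn ℝ ∞ (fun p => fderiv ℝ Θ p) (PD 2) :=
      hs.fderiv_of_isOpen (PD_open 2) (by simp)
    have e2 : ContDiffOn ℝ ∞ (fun p => ContinuousLinearMap.inverse (fderiv ℝ Θ p)) (PD 2) := by
      intro p hp
      obtain ⟨e, he⟩ := heq p hp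
      have e3 := contDiffAt_map_inverse (𝕜 := ℝ) (n := ∞) e
      rw [he] at e3
      exact (e3.comp p (e1.contDiffAt ((PD_open 2).mem_nhds hp))).contDiffWithinAt
    have e4 : ContDiffOn ℝ ∞ (fun p => D.J (Θ p)) (PD 2) := D.J_smooth.comp_contDiffOn hs
    exact e2.clm_comp (e4.clm_comp e1)
  have hGG : ∀ p ∈ PD 2, ∀ w, Gf p (Gf p w) = -w := by
    intro p hp w
    apply hDinj p hp
    rw [hGB p hp, hGB p hp, D.J_sq, map_neg]
  have hG01 : ∀ p ∈ PD 2, Gf p (0, 1) = (0, Complex.I) := by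
    intro p hp
    apply hDinj p hp
    rw [hGB p hp, hhol p hp]
  have hGest : ∀ p ∈ PD 2, ∀ w : W2, ‖Gf p w - Complex.I • w‖ ≤ 1 / 4 * ‖w‖ := by
    intro p hp w
    have e1 := hDlow p hp (Gf p w - Complex.I • w)
    have e2 : fderiv ℝ Θ p (Gf p w - Complex.I • w) =
        D.J (Θ p) (fderiv ℝ Θ p w - L w) + (D.J (Θ p) - D.J x₀) (L w) +
        (L (Complex.I • w) - fderiv ℝ Θ p (Complex.I • w)) := by
      rw [map_sub, hGB p hp, sub_apply, map_sub, hLI]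
      abel
    have e3 : ‖fderiv ℝ Θ p w - L w‖ ≤ d * ‖w‖ := by
      rw [← sub_apply]
      exact (ContinuousLinearMap.le_opNorm _ _).trans
        (mul_le_mul_of_nonneg_right (hd p hp) (norm_nonneg _))
    have e4 : ‖L (Complex.I • w) - fderiv ℝ Θ p (Complex.I • w)‖ ≤ d * ‖w‖ := by
      rw [norm_sub_rev, ← sub_apply]
      refine (ContinuousLinearMap.le_opNorm _ _).trans ?_
      have : ‖Complex.I • w‖ = ‖w‖ := by rw [norm_smul, Complex.norm_I, one_mul]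
      rw [this]
      exact mul_le_mul_of_nonneg_right (hd p hp) (norm_nonneg _)
    have e5 : ‖D.J (Θ p) - D.J x₀‖ ≤ B * (2 * (M + d)) := by
      have e6 : ‖D.J (Θ p) - D.J x₀‖ ≤ B * ‖Θ p - x₀‖ :=
        convex_univ.norm_image_sub_le_of_norm_hasFDerivWithin_le (f := D.J)
          (f' := fun x => fderiv ℝ D.J x)
          (fun x _ => ((D.J_smooth.differentiable (by simp)) x).hasFDerivAt.hasFDerivWithinAt)
          (fun x _ => (hB x).2) (mem_univ x₀) (mem_univ (Θ p))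
      have e7 : ‖Θ p - x₀‖ ≤ (M + d) * 2 := by
        rw [← h0]
        have e8 := (hbil p hp (0, 0) hz).2
        have e9 : ‖p - (0, 0)‖ ≤ 2 := by
          have : p - (0, 0) = p := by simp
          rw [this]
          exact (norm_of_PD hp).le
        refine e8.trans ?_
        apply mul_le_mul_of_nonneg_left e9 (by linarith)
      calc _ ≤ B * ‖Θ p - x₀‖ := e6
        _ ≤ B * ((M + d) * 2) := by gcongr
        _ = _ := by ring
    have e10 : ‖(D.J (Θ p) - D.J x₀) (L w)‖ ≤ B * (2 * (M + d)) * (M * ‖w‖) := by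
      refine (ContinuousLinearMap.le_opNorm _ _).trans ?_
      apply mul_le_mul e5 _ (norm_nonneg _) (by positivity)
      exact (L.le_opNorm _).trans (mul_le_mul_of_nonneg_right hLM (norm_nonneg _))
    have e11 : ‖D.J (Θ p) (fderiv ℝ Θ p w - L w)‖ ≤ B * (d * ‖w‖) :=
      (ContinuousLinearMap.le_opNorm _ _).trans
        (mul_le_mul (hB _).1 e3 (norm_nonneg _) hB0)
    rw [e2] at e1
    have e12 := (norm_add₃_le (a := D.J (Θ p) (fderiv ℝ Θ p w - L w))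
      (b := (D.J (Θ p) - D.J x₀) (L w))
      (c := L (Complex.I • w) - fderiv ℝ Θ p (Complex.I • w)))
    have e13 : c / 2 * ‖Gf p w - Complex.I • w‖ ≤ (1 / 4 * (c / 2)) * ‖w‖ := by
      calc _ ≤ B * (d * ‖w‖) + B * (2 * (M + d)) * (M * ‖w‖) + d * ‖w‖ := by linarith
        _ = ((B + 1) * d + B * (2 * (M + d)) * M) * ‖w‖ := by ring
        _ ≤ (1 / 4 * (c / 2)) * ‖w‖ := mul_le_mul_of_nonneg_right hsm (norm_nonneg _)
    have hc2 : 0 < c / 2 := by linarith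
    have e14 : c / 2 * ‖Gf p w - Complex.I • w‖ ≤ c / 2 * (1 / 4 * ‖w‖) := by
      linarith
    exact le_of_mul_le_mul_left e14 hc2
  have hsmc := smooth_coef hGs (fun p hp => (coef_est (hGest p hp)).1)
  refine ⟨{ Θ := Θ
            smooth := hs
            inj := ?_
            imm := hDbij
            hol := hhol
            m := fun p => mm (Gf p)
            A := fun p => AA (Gf p)
            m_smooth := hsmc.1
            A_smooth := hsmc.2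
            m_lt := fun p hp => lt_of_le_of_lt (coef_est (hGest p hp)).2 (by norm_num)
            graph := ?_ }, rfl, fun p hp => (coef_est (hGest p hp)).2, hbil⟩
  · intro p hp q hq k hk
    have e1 := (hbil p hp q hq).2
    have e2 : ‖p - q‖ ≤ 4 := by
      have := norm_sub_le p q
      have := norm_of_PD hp
      have := norm_of_PD hq
      linarith
    have e3 : ‖Θ p - Θ q‖ < 1 := by
      refine lt_of_le_of_lt (e1.trans (mul_le_mul_of_nonneg_left e2 (by linarith))) ?_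
      linarith
    have e4 : ∀ i, (Θ p - Θ q) i = k i := by
      intro i
      rw [hk]
      simp [tr]
    have e5 : k = 0 := by
      funext i
      have e6 : ‖(Θ p - Θ q) i‖ < 1 := lt_of_le_of_lt (norm_le_pi_norm _ i) e3
      rw [e4 i, Real.norm_eq_abs] at e6
      have e7 : |k i| < 1 := by exact_mod_cast e6
      exact Int.abs_lt_one_iff.1 e7
    refine ⟨?_, e5⟩
    have e8 : Θ p - Θ q = 0 := by
      funext i
      rw [e4 i, e5]
      simp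
    have e9 := (hbil p hp q hq).1
    rw [e8, norm_zero] at e9
    have e10 : ‖p - q‖ ≤ 0 := by nlinarith [norm_nonneg (p - q)]
    exact sub_eq_zero.1 (norm_le_zero_iff.1 e10)
  · intro p hp a b
    show b = mm (Gf p) * a + AA (Gf p) ↔ _
    rw [graph_iff (hGG p hp) (hG01 p hp) (coef_est (hGest p hp)).1]
    constructor
    · intro h ζ
      obtain ⟨ξ, hξ⟩ := h ζ
      refine ⟨ξ, ?_⟩
      rw [← hGB p hp, hξ]
    · intro h ζ
      obtain ⟨ξ, hξ⟩ := h ζ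
      refine ⟨ξ, ?_⟩
      rw [← hGB p hp] at hξ
      exact hDinj p hp hξ

/-! ## The affine model -/

/-- `w ↦ cm D x₀ w a` -/
def cmL (D : Data) (x₀ a : R4) : ℂ →L[ℝ] R4 :=
  Complex.reCLM.smulRight a + Complex.imCLM.smulRight (D.J x₀ a)

theorem cmL_apply (D : Data) (x₀ a : R4) (w : ℂ) : cmL D x₀ a w = cm D x₀ w a := rfl

theorem cm_I (D : Data) (x₀ a : R4) (w : ℂ) :
    cm D x₀ (Complex.I * w) a = D.J x₀ (cm D x₀ w a) := by
  unfold cm
  rw [map_add, map_smul, map_smul, D.J_sq]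
  simp only [Complex.mul_re, Complex.I_re, zero_mul, Complex.I_im, one_mul, zero_sub,
    Complex.mul_im, zero_add]
  rw [smul_neg, neg_smul, add_comm]

theorem norm_cm_le (D : Data) {B K : ℝ} (hB : ∀ x, ‖D.J x‖ ≤ B) (hB0 : 0 ≤ B) (x₀ a : R4)
    (ha : ‖a‖ ≤ K) (w : ℂ) : ‖cm D x₀ w a‖ ≤ K * (1 + B) * ‖w‖ := by
  unfold cm
  have h1 : ‖w.re • a‖ ≤ ‖w‖ * K := by
    rw [norm_smul]
    exact mul_le_mul (Complex.abs_re_le_norm w) ha (norm_nonneg _) (norm_nonneg _)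
  have h2 : ‖w.im • D.J x₀ a‖ ≤ ‖w‖ * (B * K) := by
    rw [norm_smul]
    refine mul_le_mul (Complex.abs_im_le_norm w) ?_ (norm_nonneg _) (norm_nonneg _)
    exact (ContinuousLinearMap.le_opNorm _ _).trans (mul_le_mul (hB _) ha (norm_nonneg _) hB0)
  calc _ ≤ ‖w.re • a‖ + ‖w.im • D.J x₀ a‖ := norm_add_le _ _
    _ ≤ ‖w‖ * K + ‖w‖ * (B * K) := add_le_add h1 h2
    _ = _ := by ring

/-- the differential of `(z, y) ↦ lmod (l, z, y)` -/
def lL (D : Data) (x₀ v h : R4) (ε : ℝ) (l : ℂ) : W2 →L[ℝ] R4 :=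
  ε • ((cmL D x₀ h).comp (ContinuousLinearMap.fst ℝ ℂ ℂ + l • ContinuousLinearMap.snd ℝ ℂ ℂ) +
    (cmL D x₀ v).comp (ContinuousLinearMap.snd ℝ ℂ ℂ))

theorem lL_apply (D : Data) (x₀ v h : R4) (ε : ℝ) (l : ℂ) (w : W2) :
    lL D x₀ v h ε l w = ε • (cm D x₀ w.2 v + cm D x₀ (w.1 + l * w.2) h) := by
  simp only [lL, smul_apply, add_apply,
    ContinuousLinearMap.comp_apply, ContinuousLinearMap.coe_fst', ContinuousLinearMap.coe_snd',
    cmL_apply, smul_eq_mul]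
  rw [add_comm]

theorem hasFDerivAt_lmod (D : Data) (x₀ v h : R4) (ε : ℝ) (q : ℂ × ℂ × ℂ) :
    HasFDerivAt (lmod D x₀ v h ε) (ε • ((cmL D x₀ h).comp
        ((ContinuousLinearMap.fst ℝ ℂ ℂ).comp (ContinuousLinearMap.snd ℝ ℂ (ℂ × ℂ))) +
      (cmL D x₀ v).comp
        ((ContinuousLinearMap.snd ℝ ℂ ℂ).comp (ContinuousLinearMap.snd ℝ ℂ (ℂ × ℂ))) +
      (cmL D x₀ h).comp (q.1 •
        ((ContinuousLinearMap.snd ℝ ℂ ℂ).comp (ContinuousLinearMap.snd ℝ ℂ (ℂ × ℂ))) +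
        q.2.2 • ContinuousLinearMap.fst ℝ ℂ (ℂ × ℂ)))) q := by
  have h1 : HasFDerivAt (fun q : ℂ × ℂ × ℂ => q.1) (ContinuousLinearMap.fst ℝ ℂ (ℂ × ℂ)) q :=
    (ContinuousLinearMap.fst ℝ ℂ (ℂ × ℂ)).hasFDerivAt
  have h2 : HasFDerivAt (fun q : ℂ × ℂ × ℂ => q.2.1)
      ((ContinuousLinearMap.fst ℝ ℂ ℂ).comp (ContinuousLinearMap.snd ℝ ℂ (ℂ × ℂ))) q :=
    ((ContinuousLinearMap.fst ℝ ℂ ℂ).comp (ContinuousLinearMap.snd ℝ ℂ (ℂ × ℂ))).hasFDerivAt
  have h3 : HasFDerivAt (fun q : ℂ × ℂ × ℂ => q.2.2)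
      ((ContinuousLinearMap.snd ℝ ℂ ℂ).comp (ContinuousLinearMap.snd ℝ ℂ (ℂ × ℂ))) q :=
    ((ContinuousLinearMap.snd ℝ ℂ ℂ).comp (ContinuousLinearMap.snd ℝ ℂ (ℂ × ℂ))).hasFDerivAt
  have h4 := h1.mul h3
  have h5 := ((cmL D x₀ h).hasFDerivAt (x := q.2.1)).comp q h2
  have h6 := ((cmL D x₀ v).hasFDerivAt (x := q.2.2)).comp q h3
  have h7 := ((cmL D x₀ h).hasFDerivAt (x := q.1 * q.2.2)).comp q h4
  exact (((h5.add h6).add h7).const_smul ε).const_add x₀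

theorem fderiv_lmod (D : Data) (x₀ v h : R4) (ε : ℝ) (l : ℂ) (p : W2) (w : W2) :
    fderiv ℝ (lmod D x₀ v h ε) (l, p) (0, w) = lL D x₀ v h ε l w := by
  rw [(hasFDerivAt_lmod D x₀ v h ε (l, p)).fderiv, lL_apply]
  simp only [smul_apply, add_apply,
    ContinuousLinearMap.comp_apply, ContinuousLinearMap.coe_fst', ContinuousLinearMap.coe_snd',
    cmL_apply, smul_eq_mul, mul_zero, add_zero]
  congr 1
  have h1 : cm D x₀ (w.1 + l * w.2) h = cm D x₀ w.1 h + cm D x₀ (l * w.2) h := by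
    rw [← cmL_apply, map_add, cmL_apply, cmL_apply]
  rw [h1]
  abel

/-! ## The statement -/

/-- the polydisc of radius 2 in three variables -/
def Q3 : Set (ℂ × ℂ × ℂ) := ball (0 : ℂ) 2 ×ˢ ball (0 : ℂ) 2 ×ˢ ball (0 : ℂ) 2

/-- what `JD` gives for one `Ξ` -/
structure IsXi (D : Data) (x₀ v h : R4) (ε δ : ℝ) (Ξ : ℂ × ℂ × ℂ → R4) : Prop where
  smooth : ContDiffOn ℝ ∞ Ξ (ball (0 : ℂ) 2 ×ˢ ball (0 : ℂ) 2 ×ˢ ball (0 : ℂ) 2)
  hol : ∀ q ∈ ball (0 : ℂ) 2 ×ˢ ball (0 : ℂ) 2 ×ˢ ball (0 : ℂ) 2,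
    fderiv ℝ Ξ q (0, 0, Complex.I) = D.J (Ξ q) (fderiv ℝ Ξ q (0, 0, 1))
  close : ∀ q ∈ ball (0 : ℂ) 2 ×ˢ ball (0 : ℂ) 2 ×ˢ ball (0 : ℂ) 2,
    ‖fderiv ℝ Ξ q - fderiv ℝ (lmod D x₀ v h ε) q‖ ≤ ε * δ
  base : ∀ l ∈ ball (0 : ℂ) 2, Ξ (l, 0, 0) = x₀

/-- `BXA`: the family `Ξ` of `JD`, closeness to the model and boxes -/
def BXA_statement : Prop := ∀ (D : Data) (K : ℝ), 0 < K → ∃ C > 0, ∀ δ > 0, ∃ ε₀ > 0,
  ∀ ε, 0 < ε → ε ≤ ε₀ →
  ∀ x₀ v h : R4, ‖v‖ ≤ K → ‖h‖ ≤ K →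
  (∀ a b : ℂ, ‖a‖ + ‖b‖ ≤ K * ‖cm D x₀ a v + cm D x₀ b h‖) →
  ∃ Ξ : ℂ × ℂ × ℂ → R4, IsXi D x₀ v h ε δ Ξ ∧
    ∀ l ∈ ball (0 : ℂ) 2, ∃ b : Box D, (∀ p ∈ PD 2, b.Θ p = Ξ (l, p.1, p.2)) ∧
      b.Θ (0, 0) = x₀ ∧ (∀ p ∈ PD 2, ‖b.m p‖ ≤ 1 / 2) ∧
      ∀ p ∈ PD 2, ∀ q ∈ PD 2, ε / C * ‖p - q‖ ≤ ‖b.Θ p - b.Θ q‖ ∧
        ‖b.Θ p - b.Θ q‖ ≤ C * ε * ‖p - q‖

theorem IsXi.mono {D : Data} {x₀ v h : R4} {ε δ δ' : ℝ} {Ξ : ℂ × ℂ × ℂ → R4}
    (hΞ : IsXi D x₀ v h ε δ Ξ) (hε : 0 ≤ ε) (hδ : δ ≤ δ') : IsXi D x₀ v h ε δ' Ξ :=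
  ⟨hΞ.smooth, hΞ.hol, fun q hq => (hΞ.close q hq).trans (mul_le_mul_of_nonneg_left hδ hε),
    hΞ.base⟩

theorem box_of_Xi (D : Data) {B K : ℝ} (hB1 : 1 ≤ B)
    (hB : ∀ x, ‖D.J x‖ ≤ B ∧ ‖fderiv ℝ D.J x‖ ≤ B) (hK : 0 < K) {ε δ : ℝ} (hε : 0 < ε)
    (hδ : 0 < δ) (hδ1 : δ ≤ 1) (hδ2 : δ ≤ 1 / (48 * K * (B + 1)))
    (hε1 : ε ≤ 1 / (8 * (4 * K * (1 + B) + 1)))
    (hε2 : ε ≤ 1 / (96 * K * B * (4 * K * (1 + B) + 1) ^ 2))
    {x₀ v h : R4} (hv : ‖v‖ ≤ K) (hh : ‖h‖ ≤ K)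
    (hvh : ∀ a b : ℂ, ‖a‖ + ‖b‖ ≤ K * ‖cm D x₀ a v + cm D x₀ b h‖)
    {Ξ : ℂ × ℂ × ℂ → R4} (hΞ : IsXi D x₀ v h ε δ Ξ) {l : ℂ} (hl : l ∈ ball (0 : ℂ) 2) :
    ∃ b : Box D, (∀ p, b.Θ p = Ξ (l, p.1, p.2)) ∧
      b.Θ (0, 0) = x₀ ∧ (∀ p ∈ PD 2, ‖b.m p‖ ≤ 1 / 2) ∧
      ∀ p ∈ PD 2, ∀ q ∈ PD 2, ε / (6 * K) * ‖p - q‖ ≤ ‖b.Θ p - b.Θ q‖ ∧
        ‖b.Θ p - b.Θ q‖ ≤ (4 * K * (1 + B) + 1) * ε * ‖p - q‖ := by
  have hB0 : 0 ≤ B := by linarith
  have hl2 : ‖l‖ < 2 := mem_ball_zero_iff.1 hl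
  set M₁ : ℝ := 4 * K * (1 + B) with hM₁
  have hM₁0 : 0 < M₁ := by positivity
  have hmem : ∀ p ∈ PD 2, ((l, p) : ℂ × ℂ × ℂ) ∈ ball (0 : ℂ) 2 ×ˢ ball (0 : ℂ) 2 ×ˢ
      ball (0 : ℂ) 2 := fun p hp => ⟨hl, hp.1, hp.2⟩
  have hopen : IsOpen (ball (0 : ℂ) 2 ×ˢ ball (0 : ℂ) 2 ×ˢ ball (0 : ℂ) 2) :=
    isOpen_ball.prod (isOpen_ball.prod isOpen_ball)
  have hdΞ : ∀ p ∈ PD 2, DifferentiableAt ℝ Ξ (l, p) := fun p hp =>
    (hΞ.smooth.contDiffAt (hopen.mem_nhds (hmem p hp))).differentiableAt (by simp)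
  have hfd : ∀ p ∈ PD 2, fderiv ℝ (fun p : W2 => Ξ (l, p)) p =
      (fderiv ℝ Ξ (l, p)).comp (ContinuousLinearMap.inr ℝ ℂ (ℂ × ℂ)) := by
    intro p hp
    exact ((hdΞ p hp).hasFDerivAt.comp p (hasFDerivAt_prodMk_right l p)).fderiv
  have hfdw : ∀ p ∈ PD 2, ∀ w : W2, fderiv ℝ (fun p : W2 => Ξ (l, p)) p w =
      fderiv ℝ Ξ (l, p) (0, w) := by
    intro p hp w
    rw [hfd p hp]
    simp
  have key : ∃ b : Box D, b.Θ = (fun p : W2 => Ξ (l, p)) ∧ (∀ p ∈ PD 2, ‖b.m p‖ ≤ 1 / 2) ∧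
      ∀ p ∈ PD 2, ∀ q ∈ PD 2, (ε / (3 * K)) / 2 * ‖p - q‖ ≤ ‖Ξ (l, p) - Ξ (l, q)‖ ∧
        ‖Ξ (l, p) - Ξ (l, q)‖ ≤ (ε * M₁ + ε * δ) * ‖p - q‖ := by
    refine exists_box D (fun p : W2 => Ξ (l, p)) x₀ (lL D x₀ v h ε l) B
      (ε / (3 * K)) (ε * M₁) (ε * δ) hB1 hB ?_ ?_ ?_ ?_ (by positivity) (by positivity) ?_ ?_ ?_ ?_
      ?_ ?_
    · exact hΞ.smooth.comp (contDiff_prodMk_right l).contDiffOn (fun p hp => hmem p hp)
    · intro p hp
      rw [hfdw p hp, hfdw p hp]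
      exact hΞ.hol (l, p) (hmem p hp)
    · exact hΞ.base l hl
    · intro w
      rw [lL_apply, lL_apply, map_smul, map_add, ← cm_I, ← cm_I]
      congr 3
      simp only [Prod.smul_fst, Prod.smul_snd, smul_eq_mul]
      ring
    · intro w
      rw [lL_apply, norm_smul, Real.norm_of_nonneg hε.le]
      have h1 := hvh w.2 (w.1 + l * w.2)
      have h2 : ‖w‖ ≤ 3 * (‖w.2‖ + ‖w.1 + l * w.2‖) := by
        rw [Prod.norm_def]
        apply max_le
        · have e1 : ‖w.1‖ ≤ ‖w.1 + l * w.2‖ + ‖l * w.2‖ := by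
            have := norm_sub_le (w.1 + l * w.2) (l * w.2)
            rwa [add_sub_cancel_right] at this
          have e2 : ‖l * w.2‖ ≤ 2 * ‖w.2‖ := by
            rw [norm_mul]
            exact mul_le_mul_of_nonneg_right hl2.le (norm_nonneg _)
          linarith [norm_nonneg w.2, norm_nonneg (w.1 + l * w.2)]
        · linarith [norm_nonneg w.2, norm_nonneg (w.1 + l * w.2)]
      have h3 : ‖w‖ ≤ 3 * (K * ‖cm D x₀ w.2 v + cm D x₀ (w.1 + l * w.2) h‖) := by linarith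
      rw [div_mul_eq_mul_div, div_le_iff₀ (by positivity)]
      calc ε * ‖w‖ ≤ ε * (3 * (K * ‖cm D x₀ w.2 v + cm D x₀ (w.1 + l * w.2) h‖)) := by gcongr
        _ = _ := by ring
    · apply ContinuousLinearMap.opNorm_le_bound _ (by positivity)
      intro w
      rw [lL_apply, norm_smul, Real.norm_of_nonneg hε.le]
      have e1 : ‖w.2‖ ≤ ‖w‖ := norm_snd_le w
      have e2 : ‖w.1‖ ≤ ‖w‖ := norm_fst_le w
      have e3 : ‖w.1 + l * w.2‖ ≤ 3 * ‖w‖ := by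
        refine (norm_add_le _ _).trans ?_
        rw [norm_mul]
        have : ‖l‖ * ‖w.2‖ ≤ 2 * ‖w‖ := mul_le_mul hl2.le e1 (norm_nonneg _) (by norm_num)
        linarith
      have e4 := norm_cm_le D (fun x => (hB x).1) hB0 x₀ v hv w.2
      have e5 := norm_cm_le D (fun x => (hB x).1) hB0 x₀ h hh (w.1 + l * w.2)
      have e6 : ‖cm D x₀ w.2 v + cm D x₀ (w.1 + l * w.2) h‖ ≤ M₁ * ‖w‖ := by
        refine (norm_add_le _ _).trans ?_
        calc _ ≤ K * (1 + B) * ‖w.2‖ + K * (1 + B) * ‖w.1 + l * w.2‖ := add_le_add e4 e5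
          _ ≤ K * (1 + B) * ‖w‖ + K * (1 + B) * (3 * ‖w‖) := by gcongr
          _ = _ := by rw [hM₁]; ring
      calc _ ≤ ε * (M₁ * ‖w‖) := by gcongr
        _ = _ := by ring
    · intro p hp
      apply ContinuousLinearMap.opNorm_le_bound _ (by positivity)
      intro w
      have e1 : (fderiv ℝ (fun p : W2 => Ξ (l, p)) p - lL D x₀ v h ε l) w =
          (fderiv ℝ Ξ (l, p) - fderiv ℝ (lmod D x₀ v h ε) (l, p)) (0, w) := by
        rw [sub_apply, sub_apply, hfdw p hp, fderiv_lmod]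
      rw [e1]
      have e2 : ‖((0 : ℂ), w)‖ = ‖w‖ := by simp [Prod.norm_def]
      refine (ContinuousLinearMap.le_opNorm _ _).trans ?_
      rw [e2]
      exact mul_le_mul_of_nonneg_right (hΞ.close _ (hmem p hp)) (norm_nonneg _)
    · -- `2 d ≤ c`
      have e1 : δ ≤ 1 / (6 * K) := by
        refine hδ2.trans ?_
        apply one_div_le_one_div_of_le (by positivity)
        nlinarith
      rw [le_div_iff₀ (by positivity)] at e1 ⊢
      nlinarith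
    · -- smallness
      have e1 : (B + 1) * δ ≤ 1 / (48 * K) := by
        have : (B + 1) * δ ≤ (B + 1) * (1 / (48 * K * (B + 1))) := by gcongr
        refine this.trans (le_of_eq ?_)
        field_simp
      have e2 : B * (2 * (M₁ + 1)) * (M₁ + 1) * ε ≤ 1 / (48 * K) := by
        have : B * (2 * (M₁ + 1)) * (M₁ + 1) * ε ≤
            B * (2 * (M₁ + 1)) * (M₁ + 1) * (1 / (96 * K * B * (M₁ + 1) ^ 2)) := by gcongr
        refine this.trans (le_of_eq ?_)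
        field_simp
        norm_num
      have e3 : B * (2 * (ε * M₁ + ε * δ)) * (ε * M₁) ≤
          ε * (B * (2 * (M₁ + 1)) * (M₁ + 1) * ε) := by
        have f1 : ε * M₁ + ε * δ ≤ ε * (M₁ + 1) := by nlinarith
        have f2 : ε * M₁ ≤ ε * (M₁ + 1) := by nlinarith
        calc _ ≤ B * (2 * (ε * (M₁ + 1))) * (ε * (M₁ + 1)) := by gcongr
          _ = _ := by ring
      have e4 : ε * (1 / (48 * K)) + ε * (1 / (48 * K)) = 1 / 4 * (ε / (3 * K) / 2) := by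
        field_simp
        norm_num
      rw [← e4]
      have e5 : (B + 1) * (ε * δ) ≤ ε * (1 / (48 * K)) := by
        calc _ = ε * ((B + 1) * δ) := by ring
          _ ≤ _ := by gcongr
      have e6 : ε * (B * (2 * (M₁ + 1)) * (M₁ + 1) * ε) ≤ ε * (1 / (48 * K)) := by gcongr
      linarith
    · have e1 : ε * (M₁ + 1) ≤ 1 / 8 := by
        rw [le_div_iff₀ (by positivity)] at hε1
        linarith
      nlinarith
  obtain ⟨b, hb, hm, hbil⟩ := key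
  refine ⟨b, fun p => by rw [hb], ?_, hm, fun p hp q hq => ?_⟩
  · rw [hb]
    exact hΞ.base l hl
  · rw [hb]
    obtain ⟨h1, h2⟩ := hbil p hp q hq
    constructor
    · refine le_trans (le_of_eq ?_) h1
      congr 1
      field_simp
      norm_num
    · refine h2.trans ?_
      apply mul_le_mul_of_nonneg_right _ (norm_nonneg _)
      nlinarith

theorem BXA (hJD : JD_statement) : BXA_statement := by
  intro D K hK
  obtain ⟨B, hB1, hB⟩ := K2H.exists_bound D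
  have hB0 : 0 < B := by linarith
  refine ⟨6 * K + (4 * K * (1 + B) + 1), by positivity, fun δ hδ => ?_⟩
  set δ' : ℝ := min δ (min 1 (1 / (48 * K * (B + 1)))) with hδ'
  have hδ'0 : 0 < δ' := lt_min hδ (lt_min one_pos (by positivity))
  obtain ⟨ε₁, hε₁, H⟩ := hJD D K δ' hK hδ'0
  refine ⟨min ε₁ (min (1 / (8 * (4 * K * (1 + B) + 1)))
    (1 / (96 * K * B * (4 * K * (1 + B) + 1) ^ 2))), lt_min hε₁ (lt_min (by positivity)
      (by positivity)), fun ε hε hle x₀ v h hv hh hvh => ?_⟩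
  obtain ⟨Ξ, h1, h2, h3⟩ := H ε hε (hle.trans (min_le_left _ _)) x₀ v h hv hh hvh
  have hΞ : IsXi D x₀ v h ε δ' Ξ := ⟨h1, fun q hq => (h2 q hq).1, fun q hq => (h2 q hq).2.1, h3⟩
  refine ⟨Ξ, hΞ.mono hε.le (min_le_left _ _), fun l hl => ?_⟩
  obtain ⟨b, hb1, hb2, hb3, hb4⟩ := box_of_Xi D hB1 hB hK hε hδ'0
    ((min_le_right _ _).trans (min_le_left _ _)) ((min_le_right _ _).trans (min_le_right _ _))
    (hle.trans ((min_le_right _ _).trans (min_le_left _ _)))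
    (hle.trans ((min_le_right _ _).trans (min_le_right _ _))) hv hh hvh hΞ hl
  refine ⟨b, fun p _ => hb1 p, hb2, hb3, fun p hp q hq => ?_⟩
  obtain ⟨g1, g2⟩ := hb4 p hp q hq
  constructor
  · refine le_trans ?_ g1
    apply mul_le_mul_of_nonneg_right _ (norm_nonneg _)
    apply div_le_div_of_nonneg_left hε.le (by positivity)
    have : 0 < 4 * K * (1 + B) + 1 := by positivity
    linarith
  · refine g2.trans ?_
    apply mul_le_mul_of_nonneg_right _ (norm_nonneg _)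
    apply mul_le_mul_of_nonneg_right _ hε.le
    linarith

end Vale.Agent.P247.H575
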